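import Mathlib.Combinatorics.SimpleGraph.Acyclic
import Mathlib.Data.Real.Basic

namespace Vale.Agent.P061

/-- A finite loopless multigraph with vertex type `V` and edge type `E` (parallel edges are
different elements of `E`): every edge has two distinct ends. -/
structure MGraph (V E : Type) where
  fst : E → V
  snd : E → V
  loopless : ∀ e, fst e ≠ snd e

namespace MGraph

variable {V E : Type} [Fintype V] [DecidableEq V] [Fintype E] [DecidableEq E]

/-- The cut `δ(S)`: all edges with exactly one end in `S`. -/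
def cut (G : MGraph V E) (S : Finset V) : Finset E :=
  Finset.univ.filter (fun e => (G.fst e ∈ S ∧ G.snd e ∉ S) ∨ (G.fst e ∉ S ∧ G.snd e ∈ S))

/-- `G` is `k`-edge-connected: every nonempty proper vertex set has at least `k` cut edges. -/
def EdgeConnected (G : MGraph V E) (k : ℕ) : Prop :=
  ∀ S : Finset V, S.Nonempty → S ≠ Finset.univ → k ≤ (G.cut S).card

/-- `T` is (the edge set of) a spanning tree: `|V| - 1` edge copies forming a tree on `V`. -/
def IsSpanningTree (G : MGraph V E) (T : Finset E) : Prop :=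
  T.card + 1 = Fintype.card V ∧
    (SimpleGraph.fromEdgeSet {p : Sym2 V | ∃ e ∈ T, p = s(G.fst e, G.snd e)}).IsTree

/-- `T` is `α`-thin: it meets every cut in at most an `α` fraction of its edges. -/
def IsThin (G : MGraph V E) (T : Finset E) (α : ℝ) : Prop :=
  ∀ S : Finset V, S.Nonempty → S ≠ Finset.univ →
    ((T ∩ G.cut S).card : ℝ) ≤ α * ((G.cut S).card : ℝ)

/-- A path decomposition of `G` of width at most `w`, with bags `bag 0, …, bag (m - 1)`. -/
structure PathDecomposition (G : MGraph V E) (w : ℕ) where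
  m : ℕ
  bag : Fin m → Finset V
  vertex_mem : ∀ v, ∃ i, v ∈ bag i
  edge_mem : ∀ e, ∃ i, G.fst e ∈ bag i ∧ G.snd e ∈ bag i
  convex : ∀ i j l, i ≤ j → j ≤ l → ∀ v, v ∈ bag i → v ∈ bag l → v ∈ bag j
  width_le : ∀ i, (bag i).card ≤ w + 1

end MGraph

end Vale.Agent.P061
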