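import Mathlib.Algebra.GroupWithZero.Action.Pointwise.Finset
import Mathlib.Algebra.Module.StablyFree.Basic
import Mathlib.Algebra.Ring.IsFormallyReal
import Mathlib.Analysis.Complex.Polynomial.Basic
import Mathlib.Analysis.Matrix.Order
import Mathlib.Combinatorics.SimpleGraph.Acyclic
import Mathlib.Combinatorics.SimpleGraph.Connectivity.Finite
import Mathlib.Data.Finset.Functor
import Mathlib.Data.Finset.Sups
import Mathlib.Data.Int.Star
import Mathlib.RingTheory.Etale.Weakly
import Mathlib.RingTheory.Flat.TorsionFree
import Mathlib.RingTheory.Henselian
import Mathlib.RingTheory.RegularLocalRing.Defs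
import Mathlib.RingTheory.SimpleRing.Principal
import Mathlib.RingTheory.TotallySplit
import Mathlib.SetTheory.ZFC.PSet
import Mathlib.Tactic

/-! The part of Mathlib that the development of this folder uses. -/
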